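import Vale.Agent.P299.H760.Iface
import Vale.Agent.P272.K.MP.Local
import Mathlib.Analysis.InnerProductSpace.EuclideanDist

/-!
# P299, package D2-LOC3: the strong maximum principle

Hopf's barrier `exp (-κ |z - y|²)` for a Euclidean norm on a finite dimensional space.
-/

open Filter Topology Set Metric Module
open scoped ContDiff

set_option maxSynthPendingDepth 3

noncomputable section

namespace Vale.Agent.P299.H587

section calculus
variable {E : Type*} [NormedAddCommGroup E] [NormedSpace ℝ E]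

/-- the squared distance to `y` for the bilinear form `B` -/
def qd (B : E →L[ℝ] E →L[ℝ] ℝ) (y z : E) : ℝ := B (z - y) (z - y)

lemma hasFDerivAt_lin (B : E →L[ℝ] E →L[ℝ] ℝ) (y z : E) :
    HasFDerivAt (fun z : E => B (z - y)) B z := by
  have h1 : HasFDerivAt (fun z : E => z - y) (ContinuousLinearMap.id ℝ E) z :=
    (hasFDerivAt_id z).sub_const y
  have h2 := B.hasFDerivAt.comp z h1
  simpa [Function.comp_def] using h2

lemma hasFDerivAt_qd {B : E →L[ℝ] E →L[ℝ] ℝ} (hs : ∀ v w, B v w = B w v) (y z : E) :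
    HasFDerivAt (qd B y) ((2 : ℝ) • B (z - y)) z := by
  have h1 : HasFDerivAt (fun z : E => z - y) (ContinuousLinearMap.id ℝ E) z :=
    (hasFDerivAt_id z).sub_const y
  have h3 := (hasFDerivAt_lin B y z).clm_apply h1
  refine h3.congr_fderiv ?_
  ext w
  have h4 : (B w) (z - y) = (B (z - y)) w := hs _ _
  show (B (z - y)) w + (B w) (z - y) = (2 : ℝ) * (B (z - y)) w
  rw [h4]; ring

/-- the barrier -/
def ex (B : E →L[ℝ] E →L[ℝ] ℝ) (κ : ℝ) (y z : E) : ℝ := Real.exp (-κ * qd B y z)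

/-- the derivative of the barrier -/
def dex (B : E →L[ℝ] E →L[ℝ] ℝ) (κ : ℝ) (y z : E) : E →L[ℝ] ℝ :=
  (-κ * ex B κ y z) • ((2 : ℝ) • B (z - y))

/-- the second derivative of the barrier -/
def ddex (B : E →L[ℝ] E →L[ℝ] ℝ) (κ : ℝ) (y z : E) : E →L[ℝ] E →L[ℝ] ℝ :=
  (-κ * ex B κ y z) • ((2 : ℝ) • B) +
    (κ ^ 2 * ex B κ y z) • ((2 : ℝ) • B (z - y)).smulRight ((2 : ℝ) • B (z - y))

lemma hasFDerivAt_ex {B : E →L[ℝ] E →L[ℝ] ℝ} (hs : ∀ v w, B v w = B w v) (κ : ℝ) (y z : E) :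
    HasFDerivAt (ex B κ y) (dex B κ y z) z := by
  have h1 := ((hasFDerivAt_qd hs y z).const_mul (-κ)).exp
  refine h1.congr_fderiv ?_
  ext w
  simp [dex, ex]
  ring

lemma hasFDerivAt_dex {B : E →L[ℝ] E →L[ℝ] ℝ} (hs : ∀ v w, B v w = B w v) (κ : ℝ) (y z : E) :
    HasFDerivAt (dex B κ y) (ddex B κ y z) z := by
  have h1 := ((hasFDerivAt_ex hs κ y z).const_mul (-κ)).smul
    ((hasFDerivAt_lin B y z).const_smul (2 : ℝ))
  refine h1.congr_fderiv ?_
  ext v w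
  simp [dex, ddex]
  ring

lemma contDiff_ex (B : E →L[ℝ] E →L[ℝ] ℝ) (κ : ℝ) (y : E) {k : WithTop ℕ∞} :
    ContDiff ℝ k (ex B κ y) := by
  have h1 : ContDiff ℝ k (fun z : E => z - y) := contDiff_id.sub contDiff_const
  have h2 : ContDiff ℝ k (fun z : E => B (z - y)) := B.contDiff.comp h1
  have h3 : ContDiff ℝ k (qd B y) := h2.clm_apply h1
  exact (contDiff_const.mul h3).exp

/-- a function with positive derivative in direction `v` -/
lemma exists_pos_of_deriv {G : E → ℝ} {G' : E →L[ℝ] ℝ} {z v : E} (hG : HasFDerivAt G G' z)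
    (h0 : G z = 0) (hv : 0 < G' v) : ∃ s ∈ Ioo (0 : ℝ) (1 / 2), 0 < G (z + s • v) := by
  have hline : HasDerivAt (fun s : ℝ => G (z + s • v)) (G' v) 0 := by
    have h1 : HasDerivAt (fun s : ℝ => z + s • v) v 0 := by
      simpa using ((hasDerivAt_id (0 : ℝ)).smul_const v).const_add z
    have h2 : HasFDerivAt G G' (z + (0 : ℝ) • v) := by
      rw [zero_smul, add_zero]; exact hG
    exact h2.comp_hasDerivAt (0 : ℝ) h1
  have hev : ∀ᶠ s in 𝓝[≠] (0 : ℝ), 0 < slope (fun s : ℝ => G (z + s • v)) 0 s :=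
    (hasDerivAt_iff_tendsto_slope.mp hline).eventually (lt_mem_nhds hv)
  have hev2 : ∀ᶠ s in 𝓝[>] (0 : ℝ), 0 < slope (fun s : ℝ => G (z + s • v)) 0 s :=
    hev.filter_mono (nhdsWithin_mono _ fun s hs => ne_of_gt hs)
  have hev3 : ∀ᶠ s in 𝓝[>] (0 : ℝ), s ∈ Ioo (0 : ℝ) (1 / 2) :=
    Ioo_mem_nhdsGT (by norm_num)
  obtain ⟨s, hs1, hs2⟩ := (hev2.and hev3).exists
  refine ⟨s, hs2, ?_⟩
  rw [slope_def_field] at hs1
  have h2 : G (z + (0 : ℝ) • v) = 0 := by rw [zero_smul, add_zero]; exact h0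
  simp only [h2, sub_zero] at hs1
  by_contra hcon
  have h3 : G (z + s • v) / s ≤ 0 :=
    div_nonpos_of_nonpos_of_nonneg (not_lt.mp hcon) hs2.1.le
  linarith

lemma fderiv_bar {B : E →L[ℝ] E →L[ℝ] ℝ} (hs : ∀ v w, B v w = B w v) (κ m c : ℝ) (y z : E)
    {φ : E → ℝ} (hφ : DifferentiableAt ℝ φ z) :
    fderiv ℝ (fun z => m * (ex B κ y z - c) - φ z) z = m • dex B κ y z - fderiv ℝ φ z :=
  ((((hasFDerivAt_ex hs κ y z).sub_const c).const_mul m).sub hφ.hasFDerivAt).fderiv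

lemma fderiv2_bar {B : E →L[ℝ] E →L[ℝ] ℝ} (hs : ∀ v w, B v w = B w v) (κ m c : ℝ) (y z : E)
    {φ : E → ℝ} (hφ : ContDiffAt ℝ 2 φ z) :
    fderiv ℝ (fderiv ℝ (fun z => m * (ex B κ y z - c) - φ z)) z =
      m • ddex B κ y z - fderiv ℝ (fderiv ℝ φ) z := by
  have h1 : fderiv ℝ (fun z => m * (ex B κ y z - c) - φ z) =ᶠ[𝓝 z]
      fun z => m • dex B κ y z - fderiv ℝ φ z := by
    have hev : ∀ᶠ y in 𝓝 z, ContDiffAt ℝ 2 φ y := hφ.eventually (by simp)
    filter_upwards [hev] with z hz using fderiv_bar hs κ m c y z (hz.differentiableAt (by norm_num))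
  rw [h1.fderiv_eq]
  have h2 : HasFDerivAt (fderiv ℝ φ) (fderiv ℝ (fderiv ℝ φ) z) z :=
    ((hφ.fderiv_right (m := 1) (by norm_num)).differentiableAt (by norm_num)).hasFDerivAt
  exact (((hasFDerivAt_dex hs κ y z).const_smul m).sub h2).fderiv

lemma op_bar {B : E →L[ℝ] E →L[ℝ] ℝ} (hs : ∀ v w, B v w = B w v) (κ m c : ℝ) (y z : E)
    {φ : E → ℝ} (hφ : ContDiffAt ℝ 2 φ z) (a : (E →L[ℝ] E →L[ℝ] ℝ) →L[ℝ] ℝ)
    (β : (E →L[ℝ] ℝ) →L[ℝ] ℝ) :
    a (fderiv ℝ (fderiv ℝ (fun z => m * (ex B κ y z - c) - φ z)) z) +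
      β (fderiv ℝ (fun z => m * (ex B κ y z - c) - φ z) z) =
    m * (ex B κ y z * (κ ^ 2 * a (((2 : ℝ) • B (z - y)).smulRight ((2 : ℝ) • B (z - y))) -
      κ * (a ((2 : ℝ) • B) + β ((2 : ℝ) • B (z - y))))) -
      (a (fderiv ℝ (fderiv ℝ φ) z) + β (fderiv ℝ φ z)) := by
  rw [fderiv2_bar hs κ m c y z hφ, fderiv_bar hs κ m c y z (hφ.differentiableAt (by norm_num))]
  have e1 : a (m • ddex B κ y z - fderiv ℝ (fderiv ℝ φ) z) =
      m * ((-κ * ex B κ y z) * a ((2 : ℝ) • B) + (κ ^ 2 * ex B κ y z) *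
        a (((2 : ℝ) • B (z - y)).smulRight ((2 : ℝ) • B (z - y)))) -
        a (fderiv ℝ (fderiv ℝ φ) z) := by
    have e11 : a ((-κ * ex B κ y z) • ((2 : ℝ) • B)) =
        (-κ * ex B κ y z) * a ((2 : ℝ) • B) := map_smul _ _ _
    have e12 : a ((κ ^ 2 * ex B κ y z) •
        ((2 : ℝ) • B (z - y)).smulRight ((2 : ℝ) • B (z - y))) =
        (κ ^ 2 * ex B κ y z) * a (((2 : ℝ) • B (z - y)).smulRight ((2 : ℝ) • B (z - y))) :=
      map_smul _ _ _
    rw [map_sub, map_smul, ddex, map_add, e11, e12, smul_eq_mul]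
  have e2 : β (m • dex B κ y z - fderiv ℝ φ z) =
      m * ((-κ * ex B κ y z) * β ((2 : ℝ) • B (z - y))) - β (fderiv ℝ φ z) := by
    have e13 : β ((-κ * ex B κ y z) • ((2 : ℝ) • B (z - y))) =
        (-κ * ex B κ y z) * β ((2 : ℝ) • B (z - y)) := map_smul _ _ _
    rw [map_sub, map_smul, dex, e13, smul_eq_mul]
  rw [e1, e2]
  ring

end calculus

section euclid
variable {E : Type*} [NormedAddCommGroup E] [NormedSpace ℝ E] [FiniteDimensional ℝ E]

/-- the Euclidean bilinear form on `E` -/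
def eB (E : Type*) [NormedAddCommGroup E] [NormedSpace ℝ E] [FiniteDimensional ℝ E] :
    E →L[ℝ] E →L[ℝ] ℝ :=
  (innerSL ℝ (E := EuclideanSpace ℝ (Fin (finrank ℝ E)))).bilinearComp
    (toEuclidean (E := E) : E →L[ℝ] EuclideanSpace ℝ (Fin (finrank ℝ E)))
    (toEuclidean (E := E) : E →L[ℝ] EuclideanSpace ℝ (Fin (finrank ℝ E)))

lemma eB_apply (v w : E) : eB E v w = inner ℝ (toEuclidean v) (toEuclidean w) := rfl

lemma eB_symm (v w : E) : eB E v w = eB E w v := by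
  rw [eB_apply, eB_apply, real_inner_comm]

/-- the Euclidean norm on `E` -/
def eN (v : E) : ℝ := ‖toEuclidean v‖

lemma eB_self (v : E) : eB E v v = eN v ^ 2 := by
  rw [eB_apply, real_inner_self_eq_norm_sq]; rfl

lemma eN_nonneg (v : E) : 0 ≤ eN v := norm_nonneg _

lemma eN_pos {v : E} (hv : v ≠ 0) : 0 < eN v := by
  refine norm_pos_iff.mpr fun h => hv ?_
  exact (map_eq_zero_iff _ (toEuclidean (E := E)).injective).mp h

lemma eN_zero : eN (0 : E) = 0 := by simp [eN]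

lemma eN_add (v w : E) : eN (v + w) ≤ eN v + eN w := by
  unfold eN; rw [map_add]; exact norm_add_le _ _

lemma eN_smul (c : ℝ) (v : E) : eN (c • v) = |c| * eN v := by
  unfold eN; rw [map_smul, norm_smul, Real.norm_eq_abs]

lemma eN_neg (v : E) : eN (-v) = eN v := by
  unfold eN; rw [map_neg, norm_neg]

lemma continuous_eN : Continuous (eN (E := E)) := by
  unfold eN
  exact (toEuclidean (E := E)).continuous.norm

lemma exists_norm_le_eN (E : Type*) [NormedAddCommGroup E] [NormedSpace ℝ E]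
    [FiniteDimensional ℝ E] : ∃ c : ℝ, 0 < c ∧ ∀ v : E, ‖v‖ ≤ c * eN v := by
  let T := toEuclidean (E := E)
  refine ⟨‖(T.symm : EuclideanSpace ℝ (Fin (finrank ℝ E)) →L[ℝ] E)‖ + 1, by positivity,
    fun v => ?_⟩
  have h := (T.symm : EuclideanSpace ℝ (Fin (finrank ℝ E)) →L[ℝ] E).le_opNorm (T v)
  have h2 : (T.symm : EuclideanSpace ℝ (Fin (finrank ℝ E)) →L[ℝ] E) (T v) = v :=
    T.symm_apply_apply v
  rw [h2] at h
  have h3 : 0 ≤ ‖T v‖ := norm_nonneg _
  calc ‖v‖ ≤ _ := h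
    _ ≤ _ := by
      show _ ≤ (_ + 1) * ‖T v‖
      nlinarith

lemma isCompact_eN_le (y : E) (r : ℝ) : IsCompact {z : E | eN (z - y) ≤ r} := by
  have : ProperSpace E := FiniteDimensional.proper ℝ E
  obtain ⟨c, hc, h⟩ := exists_norm_le_eN E
  refine (isCompact_closedBall y (c * r)).of_isClosed_subset
    (isClosed_le (continuous_eN.comp (continuous_id.sub continuous_const)) continuous_const) ?_
  intro z hz
  rw [mem_closedBall, dist_eq_norm]
  exact (h _).trans (mul_le_mul_of_nonneg_left hz hc.le)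

end euclid

open Vale.Agent.P299.H760

/-- Hopf's lemma: `φ` cannot vanish at a boundary point of a ball on which it is positive. -/
theorem hopf {E : Type} [NormedAddCommGroup E] [NormedSpace ℝ E] [FiniteDimensional ℝ E]
    {a : E → B2 E →L[ℝ] ℝ} {U : Set E} (hE : EllOn a U) {β : E → (E →L[ℝ] ℝ) →L[ℝ] ℝ}
    (hβ : ContinuousOn β U) {C' : ℝ} (hC'0 : 0 ≤ C') {φ : E → ℝ}
    (hφ : ∀ z ∈ U, ContDiffAt ℝ 2 φ z) (h0 : ∀ z ∈ U, 0 ≤ φ z)
    (hCφ : ∀ z ∈ U, Lop a φ z + β z (fderiv ℝ φ z) ≤ C' * φ z) {y₀ z₁ : E} {r : ℝ} (hr0 : 0 < r)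
    (hdU : ∀ z : E, eN (z - y₀) ≤ r → z ∈ U) (hpos : ∀ z : E, eN (z - y₀) < r → 0 < φ z)
    (hr : eN (z₁ - y₀) = r) (hz₁0 : φ z₁ = 0) : False := by
  have hφU : ContinuousOn φ U := fun z hz => (hφ z hz).continuousAt.continuousWithinAt
  have hz₁U : z₁ ∈ U := hdU z₁ hr.le
  have hdcont : Continuous fun z : E => eN (z - y₀) :=
    continuous_eN.comp (continuous_id.sub continuous_const)
  -- the annulus
  set A : Set E := {z : E | eN (z - y₀) ≤ r} ∩ {z : E | r / 2 ≤ eN (z - y₀)} with hAdef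
  have hA : IsCompact A := (isCompact_eN_le y₀ r).inter_right (isClosed_le continuous_const hdcont)
  have hAU : A ⊆ U := fun z hz => hdU z hz.1
  have hz₁A : z₁ ∈ A := ⟨hr.le, by show r / 2 ≤ eN (z₁ - y₀); rw [hr]; linarith⟩
  have hs : ∀ v w : E, eB E v w = eB E w v := eB_symm
  have hBcont0 : Continuous fun z : E => eB E (z - y₀) :=
    (eB E).continuous.comp (continuous_id.sub continuous_const)
  have hBcont : Continuous fun z : E => (2 : ℝ) • eB E (z - y₀) := hBcont0.const_smul (2 : ℝ)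
  have hacont : ContinuousOn a U := fun z hz => (hE.smooth z hz).continuousAt.continuousWithinAt
  obtain ⟨lam, hlam⟩ : ∃ lam : E → ℝ, lam = fun z =>
    a z (((2 : ℝ) • eB E (z - y₀)).smulRight ((2 : ℝ) • eB E (z - y₀))) := ⟨_, rfl⟩
  obtain ⟨mu, hmu⟩ : ∃ mu : E → ℝ, mu = fun z =>
    a z ((2 : ℝ) • eB E) + β z ((2 : ℝ) • eB E (z - y₀)) := ⟨_, rfl⟩
  have hsr : Continuous fun z : E =>
      (((2 : ℝ) • eB E (z - y₀)).smulRight ((2 : ℝ) • eB E (z - y₀)) : B2 E) := by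
    have : (fun z : E => (((2 : ℝ) • eB E (z - y₀)).smulRight ((2 : ℝ) • eB E (z - y₀)) : B2 E)) =
        fun z : E => (ContinuousLinearMap.smulRightL ℝ E (E →L[ℝ] ℝ) ((2 : ℝ) • eB E (z - y₀)))
          ((2 : ℝ) • eB E (z - y₀)) := rfl
    rw [this]
    exact ((ContinuousLinearMap.smulRightL ℝ E (E →L[ℝ] ℝ)).continuous.comp hBcont).clm_apply
      hBcont
  have hlamc : ContinuousOn lam A := by
    rw [hlam]; exact (hacont.mono hAU).clm_apply hsr.continuousOn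
  have hmuc : ContinuousOn mu A := by
    rw [hmu]
    exact ((hacont.mono hAU).clm_apply continuousOn_const).add
      ((hβ.mono hAU).clm_apply hBcont.continuousOn)
  have hlampos : ∀ z ∈ A, 0 < lam z := by
    intro z hz
    rw [hlam]
    refine hE.pos z (hAU hz) _ fun h => ?_
    have h1 : ((2 : ℝ) • eB E (z - y₀)) (z - y₀) = 0 := by rw [h]; rfl
    rw [_root_.smul_apply, eB_self, smul_eq_mul] at h1
    have h2 : r / 2 ≤ eN (z - y₀) := hz.2
    have h3 : 0 < eN (z - y₀) := by linarith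
    have h4 : 0 < eN (z - y₀) ^ 2 := by positivity
    linarith
  obtain ⟨pl, hplA, hpl⟩ := hA.exists_isMinOn ⟨z₁, hz₁A⟩ hlamc
  obtain ⟨pm, hpmA, hpm⟩ := hA.exists_isMaxOn ⟨z₁, hz₁A⟩ hmuc.abs
  obtain ⟨κ, hκ1, hkey⟩ : ∃ κ : ℝ, 1 ≤ κ ∧ ∀ z ∈ A, C' < κ ^ 2 * lam z - κ * mu z := by
    have hL₀0 : 0 < lam pl := hlampos pl hplA
    have hM0 : 0 ≤ |mu pm| := abs_nonneg _
    have hLle : ∀ z ∈ A, lam pl ≤ lam z := fun z hz => hpl hz
    have hMle : ∀ z ∈ A, mu z ≤ |mu pm| := fun z hz => (le_abs_self _).trans (hpm hz)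
    clear_value A
    clear hpl hpm hlamc hmuc hlampos hsr hBcont hBcont0 hacont
    generalize lam pl = L₀ at *
    generalize |mu pm| = M at *
    have hκ1 : 1 ≤ (M + C' + 1) / L₀ + 1 := by
      have : 0 ≤ (M + C' + 1) / L₀ := by positivity
      linarith
    have hκL : M + C' + 1 ≤ ((M + C' + 1) / L₀ + 1) * L₀ := by
      have : ((M + C' + 1) / L₀ + 1) * L₀ = (M + C' + 1) + L₀ := by field_simp
      rw [this]; linarith
    refine ⟨(M + C' + 1) / L₀ + 1, hκ1, fun z hz => ?_⟩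
    generalize (M + C' + 1) / L₀ + 1 = κ at *
    have h1 := hLle z hz
    have h2 := hMle z hz
    have h3 : κ * (κ * L₀ - M) ≤ κ ^ 2 * lam z - κ * mu z := by
      have h31 : κ ^ 2 * L₀ ≤ κ ^ 2 * lam z := mul_le_mul_of_nonneg_left h1 (sq_nonneg κ)
      have h32 : κ * mu z ≤ κ * M := mul_le_mul_of_nonneg_left h2 (by linarith)
      have h33 : κ * (κ * L₀ - M) = κ ^ 2 * L₀ - κ * M := by ring
      rw [h33]; linarith
    have h4 : C' + 1 ≤ κ * L₀ - M := by linarith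
    have h5 : 1 * (C' + 1) ≤ κ * (κ * L₀ - M) :=
      mul_le_mul hκ1 h4 (by linarith) (by linarith)
    linarith
  -- the inner ball
  obtain ⟨pi, hpiK, hpi⟩ := (isCompact_eN_le y₀ (r / 2)).exists_isMinOn (f := φ)
    ⟨y₀, by show eN (y₀ - y₀) ≤ r / 2; rw [sub_self, eN_zero]; positivity⟩
    (hφU.mono fun z hz => hdU z (le_trans hz (by linarith)))
  have hm0 : 0 < φ pi := hpos pi (lt_of_le_of_lt hpiK (by linarith))
  have hmle : ∀ z : E, eN (z - y₀) ≤ r / 2 → φ pi ≤ φ z := fun z hz => hpi hz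
  generalize φ pi = m at *
  -- the barrier
  obtain ⟨c₁, hc₁⟩ : ∃ c₁ : ℝ, c₁ = Real.exp (-κ * r ^ 2) := ⟨_, rfl⟩
  have hc₁0 : 0 < c₁ := by rw [hc₁]; exact Real.exp_pos _
  have hq : ∀ z : E, qd (eB E) y₀ z = eN (z - y₀) ^ 2 := fun z => eB_self _
  obtain ⟨h, hh⟩ : ∃ h : E → ℝ, h = ex (eB E) κ y₀ := ⟨_, rfl⟩
  have hh1 : ∀ z, h z ≤ 1 := by
    intro z
    rw [hh]
    show Real.exp _ ≤ 1
    rw [Real.exp_le_one_iff, hq]
    have : 0 ≤ κ * eN (z - y₀) ^ 2 := mul_nonneg (by linarith) (sq_nonneg _)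
    linarith
  have hh0 : ∀ z, 0 < h z := fun z => by rw [hh]; exact Real.exp_pos _
  have hhc₁ : ∀ z : E, eN (z - y₀) = r → h z = c₁ := by
    intro z hz
    rw [hh, hc₁, ← hz, ← hq]; rfl
  obtain ⟨G, hG⟩ : ∃ G : E → ℝ, G = fun z => m * (ex (eB E) κ y₀ z - c₁) - φ z := ⟨_, rfl⟩
  have hGv : ∀ z, G z = m * (h z - c₁) - φ z := fun z => by rw [hG, hh]
  have hGc : ∀ z ∈ U, ContDiffAt ℝ 2 G z := fun z hz => by
    rw [hG]
    exact (contDiffAt_const.mul (((contDiff_ex (eB E) κ y₀ (k := 2)).contDiffAt).sub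
      contDiffAt_const)).sub (hφ z hz)
  have hGcont : ContinuousOn G A := fun z hz => (hGc z (hAU hz)).continuousAt.continuousWithinAt
  have hPG : ∀ z ∈ U, a z (fderiv ℝ (fderiv ℝ G) z) + β z (fderiv ℝ G z) =
      m * (h z * (κ ^ 2 * lam z - κ * mu z)) - (Lop a φ z + β z (fderiv ℝ φ z)) := by
    intro z hz
    rw [hG, hh, hlam, hmu]
    exact op_bar hs κ m c₁ y₀ z (hφ z hz) (a z) (β z)
  obtain ⟨p, hpA, hp⟩ := hA.exists_isMaxOn ⟨z₁, hz₁A⟩ hGcont
  have hGp : G p ≤ 0 := by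
    by_contra hcon
    push Not at hcon
    have h1 : eN (p - y₀) ≠ r := by
      intro he
      rw [hGv, hhc₁ p he, sub_self, mul_zero, zero_sub] at hcon
      have := h0 p (hAU hpA)
      linarith
    have h2 : eN (p - y₀) ≠ r / 2 := by
      intro he
      have h3 := hmle p he.le
      have h4 := hh1 p
      rw [hGv] at hcon
      have h5 : m * (h p - c₁) ≤ m * 1 := mul_le_mul_of_nonneg_left (by linarith) hm0.le
      linarith
    have h3 : eN (p - y₀) < r := lt_of_le_of_ne hpA.1 h1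
    have h4 : r / 2 < eN (p - y₀) := lt_of_le_of_ne hpA.2 (Ne.symm h2)
    have hloc : IsLocalMax G p := by
      have hopen : IsOpen ({z : E | eN (z - y₀) < r} ∩ {z : E | r / 2 < eN (z - y₀)}) :=
        (isOpen_lt hdcont continuous_const).inter (isOpen_lt continuous_const hdcont)
      filter_upwards [hopen.mem_nhds ⟨h3, h4⟩] with z hz
      have hz1 : eN (z - y₀) < r := hz.1
      have hz2 : r / 2 < eN (z - y₀) := hz.2
      exact hp (⟨hz1.le, hz2.le⟩ : z ∈ A)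
    have hpos' : ∀ ξ : E →L[ℝ] ℝ, 0 ≤ a p (ξ.smulRight ξ) := by
      intro ξ
      rcases eq_or_ne ξ 0 with rfl | hξ
      · have : ((0 : E →L[ℝ] ℝ).smulRight (0 : E →L[ℝ] ℝ)) = 0 := by ext; simp
        rw [this, map_zero]
      · exact (hE.pos p (hAU hpA) ξ hξ).le
    have h5 := Vale.Agent.P272.K.MP.op_nonpos_of_max (a p) hpos' (β p) hloc (hGc p (hAU hpA))
    rw [hPG p (hAU hpA)] at h5
    have h6 := hCφ p (hAU hpA)
    have h7 := hkey p hpA
    have h8 := hh0 p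
    have h9 : m * (h p * C') < m * (h p * (κ ^ 2 * lam p - κ * mu p)) :=
      mul_lt_mul_of_pos_left (mul_lt_mul_of_pos_left h7 h8) hm0
    have h10 : C' * G p = m * (h p * C') - m * (C' * c₁) - C' * φ p := by rw [hGv]; ring
    have h11 : 0 ≤ C' * G p := mul_nonneg hC'0 hcon.le
    have h12 : 0 ≤ m * (C' * c₁) := by positivity
    linarith
  -- the derivative at `z₁`
  have hGz : G z₁ = 0 := by
    rw [hGv, hhc₁ z₁ hr, hz₁0]; ring
  have hdφ : fderiv ℝ φ z₁ = 0 := by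
    have : IsLocalMin φ z₁ := by
      filter_upwards [hE.isOpen.mem_nhds hz₁U] with z hz
      rw [hz₁0]; exact h0 z hz
    exact this.fderiv_eq_zero
  have hderiv : 0 < fderiv ℝ G z₁ (-(z₁ - y₀)) := by
    rw [hG, fderiv_bar hs κ m c₁ y₀ z₁ ((hφ z₁ hz₁U).differentiableAt (by norm_num)), hdφ,
      sub_zero]
    have h2 : (m • dex (eB E) κ y₀ z₁) (-(z₁ - y₀)) =
        2 * (m * κ * ex (eB E) κ y₀ z₁ * eN (z₁ - y₀) ^ 2) := by
      rw [map_neg, ← eB_self]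
      show -(m * ((-κ * ex (eB E) κ y₀ z₁) * (2 * eB E (z₁ - y₀) (z₁ - y₀)))) = _
      ring
    rw [h2, hr]
    have h3 : 0 < ex (eB E) κ y₀ z₁ := Real.exp_pos _
    have h4 : 0 < κ := by linarith
    positivity
  obtain ⟨s, hs2, hs1⟩ := exists_pos_of_deriv
    ((hGc z₁ hz₁U).differentiableAt (by norm_num)).hasFDerivAt hGz hderiv
  have h2 : eN (z₁ + s • -(z₁ - y₀) - y₀) = (1 - s) * r := by
    have h1 : z₁ + s • -(z₁ - y₀) - y₀ = (1 - s) • (z₁ - y₀) := by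
      rw [smul_neg, sub_smul, one_smul]; abel
    rw [h1, eN_smul, abs_of_pos (by linarith [hs2.2]), hr]
  have hsA : z₁ + s • -(z₁ - y₀) ∈ A := by
    refine ⟨?_, ?_⟩
    · show eN (z₁ + s • -(z₁ - y₀) - y₀) ≤ r
      rw [h2]
      have : 0 ≤ s * r := mul_nonneg hs2.1.le hr0.le
      linarith
    · show r / 2 ≤ eN (z₁ + s • -(z₁ - y₀) - y₀)
      rw [h2]
      have : s * r ≤ 1 / 2 * r := mul_le_mul_of_nonneg_right hs2.2.le hr0.le
      linarith
  exact absurd hs1 (not_lt.mpr ((hp hsA).trans hGp))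

/-- **D2-LOC3**: the strong maximum principle. -/
theorem smp : SMPStatement := by
  intro E _ _ _ a U hE β hβ C φ hφ h0 hC x₀ hx₀ hφ0
  obtain ⟨c, hc, hcN⟩ := exists_norm_le_eN E
  obtain ⟨δ, hδ, hδU⟩ := Metric.isOpen_iff.mp hE.isOpen x₀ hx₀
  set ε : ℝ := δ / (4 * c) with hε
  have hε0 : 0 < ε := by positivity
  have hKU : ∀ z : E, eN (z - x₀) ≤ 3 * ε → z ∈ U := by
    intro z hz
    apply hδU
    rw [mem_ball, dist_eq_norm]
    have h1 : c * ε = δ / 4 := by rw [hε]; field_simp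
    have h2 := hcN (z - x₀)
    have h3 : c * eN (z - x₀) ≤ c * (3 * ε) := mul_le_mul_of_nonneg_left hz hc.le
    have h4 : c * (3 * ε) = 3 * (c * ε) := by ring
    rw [h4, h1] at h3
    linarith
  have hnear : ∀ᶠ z in 𝓝 x₀, eN (z - x₀) < ε := by
    have hcont : Continuous fun z : E => eN (z - x₀) :=
      continuous_eN.comp (continuous_id.sub continuous_const)
    refine hcont.continuousAt.eventually (eventually_lt_nhds ?_)
    show eN (x₀ - x₀) < ε
    rw [sub_self, eN_zero]; exact hε0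
  filter_upwards [hnear] with y₀ hy₀
  by_contra hne
  have hφU : ContinuousOn φ U := fun z hz => (hφ z hz).continuousAt.continuousWithinAt
  -- closest zero
  set K : Set E := {z : E | eN (z - x₀) ≤ 3 * ε} with hKdef
  have hK : IsCompact K := isCompact_eN_le x₀ _
  have hZ : IsCompact (K ∩ φ ⁻¹' {0}) := by
    refine hK.of_isClosed_subset ?_ inter_subset_left
    exact (hφU.mono fun z hz => hKU z hz).preimage_isClosed_of_isClosed hK.isClosed
      isClosed_singleton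
  have hdcont : Continuous fun z : E => eN (z - y₀) :=
    continuous_eN.comp (continuous_id.sub continuous_const)
  have hx₀K : x₀ ∈ K := by
    show eN (x₀ - x₀) ≤ 3 * ε
    rw [sub_self, eN_zero]; positivity
  obtain ⟨z₁, hz₁, hz₁min⟩ := hZ.exists_isMinOn ⟨x₀, hx₀K, hφ0⟩ hdcont.continuousOn
  have hz₁0 : φ z₁ = 0 := hz₁.2
  have hzy : z₁ - y₀ ≠ 0 := by
    intro h
    rw [sub_eq_zero] at h
    rw [h] at hz₁0
    exact hne hz₁0
  have hxy : eN (x₀ - y₀) = eN (y₀ - x₀) := by rw [← eN_neg, neg_sub]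
  have hrε : eN (z₁ - y₀) < ε := by
    have : eN (z₁ - y₀) ≤ eN (x₀ - y₀) := hz₁min ⟨hx₀K, hφ0⟩
    rw [hxy] at this
    exact this.trans_lt hy₀
  have hdK : ∀ z : E, eN (z - y₀) ≤ eN (z₁ - y₀) → z ∈ K := by
    intro z hz
    show eN (z - x₀) ≤ 3 * ε
    have h1 : z - x₀ = (z - y₀) + (y₀ - x₀) := by abel
    rw [h1]
    have := eN_add (z - y₀) (y₀ - x₀)
    linarith
  have hdU : ∀ z : E, eN (z - y₀) ≤ eN (z₁ - y₀) → z ∈ U := fun z hz => hKU z (hdK z hz)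
  have hpos : ∀ z : E, eN (z - y₀) < eN (z₁ - y₀) → 0 < φ z := by
    intro z hz
    refine lt_of_le_of_ne (h0 z (hdU z hz.le)) fun h => ?_
    have := hz₁min (⟨hdK z hz.le, h.symm⟩ : z ∈ K ∩ φ ⁻¹' {0})
    exact absurd this (not_le.mpr hz)
  have hCφ : ∀ z ∈ U, Lop a φ z + β z (fderiv ℝ φ z) ≤ max C 0 * φ z := fun z hz =>
    (hC z hz).trans (mul_le_mul_of_nonneg_right (le_max_left _ _) (h0 z hz))
  exact hopf hE hβ (le_max_right _ _) hφ h0 hCφ (eN_pos hzy) hdU hpos rfl hz₁0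

end Vale.Agent.P299.H587
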